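import Vale.Agent.P134.LI.Blocks
import Vale.Agent.P134.SM.Ibp

set_option linter.all false

/-! P134, package R3: block LI3f, the identity for `a = G f`. -/

namespace Vale.Agent.P134.H790

open Vale.Agent.P134 Vale.Agent.P134.SM Vale.Agent.P134.LI MeasureTheory Filter Topology

lemma ff_eq (u : R3 → ℝ) : ff u = fun x => (1 / Real.sqrt 2) * psi u x := by
  funext x
  unfold ff psi
  ring

lemma ff_c2 {u : R3 → ℝ} (hu : Sol u) : ContDiff ℝ 2 (ff u) := by
  rw [ff_eq]
  exact contDiff_const.mul hu.psi_contDiff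

lemma sqrt2_sq : Real.sqrt 2 * Real.sqrt 2 = 2 := Real.mul_self_sqrt (by norm_num)

lemma ff_pos {u : R3 → ℝ} (h : ∀ x, |u x| < 1) (x : R3) : 0 < ff u x := by
  unfold ff
  have := abs_lt.mp (h x)
  have h1 : 0 < 1 - u x ^ 2 := by nlinarith
  positivity

/-- `∇φ = ∇u / f`. -/
lemma pd_phi {u : R3 → ℝ} (hu : Sol u) (h : ∀ x, |u x| < 1) (i : Fin 3) (x : R3) :
    pd i (phi u) x = pd i u x / ff u x := by
  have hx := abs_lt.mp (h x)
  have h1 : (1 : ℝ) + u x ≠ 0 := by linarith
  have h2 : (1 : ℝ) - u x ≠ 0 := by linarith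
  have e : HasDerivAt (fun s : ℝ => Real.sqrt 2 / 2 * (Real.log (1 + s) - Real.log (1 - s)))
      (1 / ((1 - u x ^ 2) / Real.sqrt 2)) (u x) := by
    have d1 : HasDerivAt (fun s : ℝ => Real.log (1 + s)) (1 / (1 + u x)) (u x) :=
      ((hasDerivAt_id (u x)).const_add 1).log h1
    have d2 : HasDerivAt (fun s : ℝ => Real.log (1 - s)) (-1 / (1 - u x)) (u x) :=
      ((hasDerivAt_id (u x)).const_sub 1).log h2
    have d3 := (d1.sub d2).const_mul (Real.sqrt 2 / 2)
    refine d3.congr_deriv ?_
    have h3 : (1 : ℝ) - u x ^ 2 ≠ 0 := by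
      have : (1 : ℝ) - u x ^ 2 = (1 + u x) * (1 - u x) := by ring
      rw [this]; exact mul_ne_zero h1 h2
    have hs : Real.sqrt 2 ≠ 0 := by positivity
    field_simp
    ring
  have e2 : phi u = fun y => (fun s : ℝ => Real.sqrt 2 / 2 * (Real.log (1 + s) - Real.log (1 - s)))
      (u y) := rfl
  rw [e2, pd_comp e.differentiableAt (dif hu.c2 x), e.deriv]
  unfold ff
  ring

/-- `f² q = D`. -/
lemma ff_sq_qq {u : R3 → ℝ} (hu : Sol u) (h : ∀ x, |u x| < 1) (x : R3) :
    ff u x ^ 2 * qq u x = defi u x := by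
  have hf := (ff_pos h x).ne'
  have e : gs (phi u) x = gs u x / ff u x ^ 2 := by
    unfold gs
    rw [Finset.sum_div]
    refine Finset.sum_congr rfl fun i _ => ?_
    rw [pd_phi hu h, div_pow]
  unfold qq
  rw [e, defi_eq]
  have e2 : ff u x ^ 2 = psi u x ^ 2 / 2 := by
    rw [ff_eq, mul_pow, div_pow, one_pow, Real.sq_sqrt (by norm_num)]
    ring
  rw [mul_sub, mul_one, mul_div_cancel₀ _ (pow_ne_zero 2 hf), e2]

/-- `L f = √2 f² q`. -/
lemma lap_ff {u : R3 → ℝ} (hu : Sol u) (h : ∀ x, |u x| < 1) (x : R3) :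
    lap (ff u) x = VV u x * ff u x + Real.sqrt 2 * ff u x ^ 2 * qq u x := by
  have hl : lap (psi u) x = (3 * u x ^ 2 - 1) * psi u x + 2 * defi u x := hu.lap_psi x
  rw [mul_assoc, ff_sq_qq hu h, ff_eq, lap_smul _ hu.psi_contDiff, hl]
  unfold VV
  have hs : Real.sqrt 2 ≠ 0 := by positivity
  have h2 : 1 / Real.sqrt 2 * 2 = Real.sqrt 2 := by
    field_simp
    exact sqrt2_sq.symm ▸ (by norm_num)
  linear_combination (defi u x) * h2

/-- LI3f with the intended parentheses (in `LI.StLI3f` the first integral sign swallows the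
second summand). -/
theorem LI3f (u : R3 → ℝ) (hu : Sol u) (h : ∀ x, |u x| < 1)
    (G : R3 → ℝ) (hG : ContDiff ℝ 2 G) (hGc : HasCompactSupport G) (β : R3 → ℝ)
    (hβ : ContDiff ℝ 2 β) :
    ∫ x, β x * (gs (fun y => G y * ff u y) x + VV u x * (G x * ff u x) ^ 2)
    = (∫ x, β x * (ff u x ^ 2 * gs G x - Real.sqrt 2 * G x ^ 2 * ff u x ^ 3 * qq u x))
      + (1 / 2) * ∫ x, ff u x ^ 2 * (G x ^ 2 * lap β x + 2 * G x * gg G β x) := by
  have hf := ff_c2 hu
  set f := ff u with hfdef
  have G1 : ContDiff ℝ 1 G := hG.of_le (by norm_num)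
  have f1 : ContDiff ℝ 1 f := hf.of_le (by norm_num)
  have β1 : ContDiff ℝ 1 β := hβ.of_le (by norm_num)
  have cpdG : ∀ i, ContDiff ℝ 1 (pd i G) := fun i => contDiff_pd_one hG
  have cpdf : ∀ i, ContDiff ℝ 1 (pd i f) := fun i => contDiff_pd_one hf
  have cpdβ : ∀ i, ContDiff ℝ 1 (pd i β) := fun i => contDiff_pd_one hβ
  -- the compactly supported field
  set Y : Fin 3 → R3 → ℝ := fun i x =>
    (G x * G x) * (β x * (f x * pd i f x)) - (G x * G x) * ((1 / 2) * (f x * (f x * pd i β x)))
    with hY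
  have hY1 : ∀ i, ContDiff ℝ 1 (Y i) := fun i =>
    ((G1.mul G1).mul (β1.mul (f1.mul (cpdf i)))).sub
      ((G1.mul G1).mul (contDiff_const.mul (f1.mul (f1.mul (cpdβ i)))))
  have hYc : ∀ i, HasCompactSupport (Y i) := fun i =>
    (hGc.mul_right.mul_right).sub (hGc.mul_right.mul_right)
  have hdiv := int_div_zero hY1 hYc
  have dG : ∀ x, DifferentiableAt ℝ G x := dif hG
  have df : ∀ x, DifferentiableAt ℝ f x := dif hf
  have dβ : ∀ x, DifferentiableAt ℝ β x := dif hβ
  have dpf : ∀ i x, DifferentiableAt ℝ (pd i f) x := fun i x => dif_pd hf i x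
  have dpβ : ∀ i x, DifferentiableAt ℝ (pd i β) x := fun i x => dif_pd hβ i x
  have hpY : ∀ i x, pd i (Y i) x =
      2 * G x * pd i G x * (β x * (f x * pd i f x)) + G x ^ 2 * (pd i β x * (f x * pd i f x)
        + β x * (pd i f x ^ 2 + f x * pd i (pd i f) x))
      - (2 * G x * pd i G x * ((1 / 2) * (f x * (f x * pd i β x)))
        + G x ^ 2 * (f x * pd i f x * pd i β x + (1 / 2) * f x ^ 2 * pd i (pd i β) x)) := by
    intro i x
    have a1 : DifferentiableAt ℝ (fun y => G y * G y) x := (dG x).mul (dG x)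
    have a2 : DifferentiableAt ℝ (fun y => f y * pd i f y) x := (df x).mul (dpf i x)
    have a3 : DifferentiableAt ℝ (fun y => β y * (f y * pd i f y)) x := (dβ x).mul a2
    have a4 : DifferentiableAt ℝ (fun y => f y * pd i β y) x := (df x).mul (dpβ i x)
    have a5 : DifferentiableAt ℝ (fun y => f y * (f y * pd i β y)) x := (df x).mul a4
    have a6 : DifferentiableAt ℝ (fun y => (1 / 2 : ℝ) * (f y * (f y * pd i β y))) x :=
      a5.const_mul _
    have a7 : DifferentiableAt ℝ (fun y => (1 / 2 : ℝ)) x := differentiableAt_const _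
    have b1 : DifferentiableAt ℝ (fun y => (G y * G y) * (β y * (f y * pd i f y))) x := a1.mul a3
    have b2 : DifferentiableAt ℝ (fun y => (G y * G y) * ((1 / 2 : ℝ) * (f y * (f y * pd i β y)))) x :=
      a1.mul a6
    have e : pd i (Y i) x = pd i (fun y => (G y * G y) * (β y * (f y * pd i f y))
      - (G y * G y) * ((1 / 2 : ℝ) * (f y * (f y * pd i β y)))) x := rfl
    rw [e, pd_sub b1 b2, pd_mul a1 a3, pd_mul a1 a6, pd_mul (dG x) (dG x),
      pd_mul (dβ x) a2, pd_mul (df x) (dpf i x), pd_mul a7 a5, pd_mul (df x) a4,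
      pd_mul (df x) (dpβ i x), pd_const]
    ring
  have hsum : ∀ x, ∑ i, pd i (Y i) x =
      β x * (gs (fun y => G y * f y) x + VV u x * (G x * f x) ^ 2)
      - (β x * (f x ^ 2 * gs G x - Real.sqrt 2 * G x ^ 2 * f x ^ 3 * qq u x)
      + (1 / 2) * (f x ^ 2 * (G x ^ 2 * lap β x + 2 * G x * gg G β x))) := by
    intro x
    have hl : lap f x = VV u x * f x + Real.sqrt 2 * f x ^ 2 * qq u x := lap_ff hu h x
    have hgs : gs (fun y => G y * f y) x =
        ∑ i, (pd i G x * f x + G x * pd i f x) ^ 2 := by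
      unfold gs
      refine Finset.sum_congr rfl fun i _ => ?_
      rw [pd_mul (dG x) (df x)]
      ring
    have hl' : ∑ i, pd i (pd i f) x = VV u x * f x + Real.sqrt 2 * f x ^ 2 * qq u x := hl
    rw [Finset.sum_congr rfl fun i _ => hpY i x, hgs]
    unfold gs gg lap
    simp only [Fin.sum_univ_three] at hl' ⊢
    linear_combination (β x * G x ^ 2 * f x) * hl'
  -- integrability
  have cf := hf.continuous
  have cG := hG.continuous
  have cβ := hβ.continuous
  have cq : Continuous (fun x => f x ^ 2 * qq u x) := by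
    have : (fun x => f x ^ 2 * qq u x) = defi u := by
      funext x; exact ff_sq_qq hu h x
    rw [this]
    exact (Sol.defi_c2 hu).continuous
  have cgsG : Continuous (gs G) := by
    unfold gs
    exact continuous_finset_sum _ fun i _ => (continuous_pd G1).pow 2
  have clap : Continuous (lap β) := by
    unfold lap
    exact continuous_finset_sum _ fun i _ => continuous_pd (cpdβ i)
  have cgg : Continuous (gg G β) := by
    unfold gg
    exact continuous_finset_sum _ fun i _ => (continuous_pd G1).mul (continuous_pd β1)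
  have cVV : Continuous (VV u) := by
    unfold VV
    have := hu.c2.continuous
    fun_prop
  have gsG0 : ∀ x, x ∉ tsupport G → gs G x = 0 := by
    intro x hx
    unfold gs
    refine Finset.sum_eq_zero fun i _ => ?_
    rw [pd_eq_zero_of_notMem_tsupport hx]; ring
  have iA : Integrable (fun x => β x * (f x ^ 2 * gs G x
      - Real.sqrt 2 * G x ^ 2 * f x ^ 3 * qq u x)) := by
    have e : (fun x => β x * (f x ^ 2 * gs G x - Real.sqrt 2 * G x ^ 2 * f x ^ 3 * qq u x)) =
        fun x => β x * (f x ^ 2 * gs G x - Real.sqrt 2 * G x ^ 2 * f x * (f x ^ 2 * qq u x)) := by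
      funext x; ring
    rw [e]
    refine Continuous.integrable_of_hasCompactSupport (by fun_prop) ?_
    refine HasCompactSupport.intro hGc fun x hx => ?_
    rw [gsG0 x hx, image_eq_zero_of_notMem_tsupport hx]
    ring
  have iB : Integrable (fun x => f x ^ 2 * (G x ^ 2 * lap β x + 2 * G x * gg G β x)) := by
    refine Continuous.integrable_of_hasCompactSupport (by fun_prop) ?_
    refine HasCompactSupport.intro hGc fun x hx => ?_
    rw [image_eq_zero_of_notMem_tsupport hx]
    ring
  have iL : Integrable (fun x => β x * (gs (fun y => G y * f y) x + VV u x * (G x * f x) ^ 2)) := by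
    have c1 : ContDiff ℝ 1 (fun y => G y * f y) := G1.mul f1
    have c2 : Continuous (gs (fun y => G y * f y)) := by
      unfold gs
      exact continuous_finset_sum _ fun i _ => (continuous_pd c1).pow 2
    refine Continuous.integrable_of_hasCompactSupport (by fun_prop) ?_
    refine HasCompactSupport.intro hGc fun x hx => ?_
    have hx' : x ∉ tsupport (fun y => G y * f y) := fun h' => hx (tsupport_mul_subset_left h')
    have : gs (fun y => G y * f y) x = 0 := by
      unfold gs
      refine Finset.sum_eq_zero fun i _ => ?_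
      rw [pd_eq_zero_of_notMem_tsupport hx']; ring
    rw [this, image_eq_zero_of_notMem_tsupport hx]
    ring
  simp_rw [hsum] at hdiv
  have iB' : Integrable (fun x => (1 / 2 : ℝ) * (f x ^ 2 * (G x ^ 2 * lap β x
    + 2 * G x * gg G β x))) := iB.const_mul _
  have iAB : Integrable (fun x => β x * (f x ^ 2 * gs G x
      - Real.sqrt 2 * G x ^ 2 * f x ^ 3 * qq u x) + (1 / 2 : ℝ) * (f x ^ 2 * (G x ^ 2 * lap β x
    + 2 * G x * gg G β x))) := iA.add iB'
  rw [integral_sub iL iAB, integral_add iA iB', integral_const_mul] at hdiv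
  exact sub_eq_zero.mp hdiv

/-- LI3f in the exact form of `LI/Blocks.lean`. -/
theorem stLI3f : StLI3f := LI3f

end Vale.Agent.P134.H790
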