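import Vale.Agent.P134.H790.T3b
import Vale.Agent.P134.H491.StUB

/-! P134, package R3: block T3b of S-D1, unconditional. -/

set_option linter.all false

namespace Vale.Agent.P134.H790

open Vale.Agent.P134.LI

theorem stT3b : StT3b := T3b.stT3b H491.T1.stUB

end Vale.Agent.P134.H790
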