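import Vale.Agent.P134.LI.T2
import Vale.Agent.P134.LI.Fct1
import Vale.Agent.P134.H88.T3

/-! P134, package R3: block T3b of S-D1 (tangential terms, second half). -/

set_option linter.all false

namespace Vale.Agent.P134.H790.T3b

open Vale.Agent.P134 Vale.Agent.P134.SM Vale.Agent.P134.LI MeasureTheory Filter Topology
open Vale.Agent.P134.LI.Fct

variable {CX s3 δ W lam C1 μ c2 Cp ε κ R : ℝ} {u : R3 → ℝ} {B : Set R3} {η : R3 → ℝ} {w : ℝ → ℝ}
  {χ om b : R3 → ℝ} {x : R3} {t : ℝ} {z : R3 × ℝ}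

lemma eno_smul' (c : ℝ) (v : R3) : eno (fun i => c * v i) = |c| * eno v := by
  unfold eno esq
  simp only [mul_pow]
  rw [← Finset.mul_sum, Real.sqrt_mul (sq_nonneg c), Real.sqrt_sq_eq_abs]

lemma eno_le_two {v : R3} {K : ℝ} (hK : 0 ≤ K) (h : ∀ i, |v i| ≤ K) : eno v ≤ 2 * K := by
  unfold eno
  rw [Real.sqrt_le_left (by positivity)]
  unfold esq
  have h1 : ∀ i, v i ^ 2 ≤ K ^ 2 := fun i => by
    rw [← sq_abs]; exact pow_le_pow_left₀ (abs_nonneg _) (h i) 2
  calc ∑ i, v i ^ 2 ≤ ∑ i : Fin 3, K ^ 2 := Finset.sum_le_sum fun i _ => h1 i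
    _ = 3 * K ^ 2 := by simp
    _ ≤ (2 * K) ^ 2 := by nlinarith [sq_nonneg K]

/-- product rule. -/
lemma sqrt_gs_mul {f g : R3 → ℝ} (hf : Differentiable ℝ f) (hg : Differentiable ℝ g) (x : R3) :
    Real.sqrt (gs (fun y => f y * g y) x)
      ≤ |f x| * Real.sqrt (gs g x) + |g x| * Real.sqrt (gs f x) := by
  have e : (fun i => pd i (fun y => f y * g y) x)
      = (fun i => f x * pd i g x) + fun i => g x * pd i f x := by
    funext i
    rw [pd_mul (hf x) (hg x)]; rfl
  have h := H283.eno_add_le (fun i : Fin 3 => f x * pd i g x) (fun i => g x * pd i f x)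
  rw [eno_smul', eno_smul', ← e] at h
  exact h

/-- the amplitude is `≤ Gw`. -/
lemma abs_ee_le (hS : SDat CX s3 δ W lam C1 u B η w χ om) (hb : BDat C1 R b) (hs : 0 < s3)
    (h : |phi u x| < s3) : |EE s3 u η om b x| ≤ Gw lam x := by
  rw [ee_eq hs h.le]
  obtain ⟨h1, h2⟩ := hS.etab x
  obtain ⟨h3, h4⟩ := hS.omb x
  obtain ⟨h5, h6⟩ := hb.bb x
  rw [abs_of_nonneg (by positivity)]
  calc η x * om x * b x ≤ η x * 1 * 1 := by gcongr
    _ ≤ _ := by linarith

lemma ee_sq_le (hS : SDat CX s3 δ W lam C1 u B η w χ om) (hb : BDat C1 R b) (hs : 0 < s3)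
    (h : |phi u x| < s3) : EE s3 u η om b x ^ 2 ≤ (η x * om x) ^ 2 := by
  rw [ee_eq hs h.le]
  obtain ⟨h1, h2⟩ := hS.etab x
  obtain ⟨h3, h4⟩ := hS.omb x
  obtain ⟨h5, h6⟩ := hb.bb x
  refine pow_le_pow_left₀ (by positivity) ?_ 2
  calc η x * om x * b x ≤ η x * om x * 1 := by gcongr
    _ = _ := by ring

/-- the gradient of the amplitude. -/
lemma ee_gs_le (hS : SDat CX s3 δ W lam C1 u B η w χ om) (hb : BDat C1 R b) (hC1 : 0 < C1)
    (hs : 0 < s3) (h : |phi u x| < s3) :
    |EE s3 u η om b x| * Real.sqrt (gs (EE s3 u η om b) x)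
      ≤ Gw lam x * Real.sqrt (gs η x) + Gw lam x ^ 2 * Real.sqrt (gs om x)
        + Gw lam x ^ 2 * (2 * C1 / R) := by
  have hR : 0 < R := lt_of_lt_of_le one_pos hb.R1
  have hG := H586.Gw_pos lam x
  obtain ⟨h1, h2⟩ := hS.etab x
  obtain ⟨h3, h4⟩ := hS.omb x
  obtain ⟨h5, h6⟩ := hb.bb x
  have d1 : Differentiable ℝ η := hS.eta1.differentiable (by norm_num)
  have d2 : Differentiable ℝ om := hS.om2.differentiable (by norm_num)
  have d3 : Differentiable ℝ b := hb.b2.differentiable (by norm_num)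
  have k1 : Real.sqrt (gs (fun y => η y * om y * b y) x)
      ≤ |η x * om x| * Real.sqrt (gs b x) + |b x| * Real.sqrt (gs (fun y => η y * om y) x) :=
    sqrt_gs_mul (d1.mul d2) d3 x
  have k2 := sqrt_gs_mul d1 d2 x
  have k3 : Real.sqrt (gs b x) ≤ 2 * C1 / R := by
    have := eno_le_two (v := fun i => pd i b x) (K := C1 / R) (by positivity) (fun i => hb.bd x i)
    calc Real.sqrt (gs b x) ≤ 2 * (C1 / R) := this
      _ = _ := by ring
  have s1 := Real.sqrt_nonneg (gs η x)
  have s2 := Real.sqrt_nonneg (gs om x)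
  have s3' := Real.sqrt_nonneg (gs b x)
  rw [ee_gs hS hs h]
  have a1 := abs_ee_le hS hb hs h
  rw [abs_of_nonneg h1, abs_of_nonneg h3] at k2
  rw [abs_of_nonneg (mul_nonneg h1 h3), abs_of_nonneg h5] at k1
  have hE : Real.sqrt (gs (fun y => η y * om y * b y) x)
      ≤ Real.sqrt (gs η x) + Gw lam x * Real.sqrt (gs om x) + Gw lam x * (2 * C1 / R) := by
    refine k1.trans ?_
    have m1 : η x * om x * Real.sqrt (gs b x) ≤ Gw lam x * (2 * C1 / R) := by
      refine mul_le_mul ?_ k3 s3' hG.le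
      calc η x * om x ≤ η x * 1 := by gcongr
        _ ≤ _ := by linarith
    have m2 : b x * Real.sqrt (gs (fun y => η y * om y) x)
        ≤ Real.sqrt (gs η x) + Gw lam x * Real.sqrt (gs om x) := by
      have m3 : b x * Real.sqrt (gs (fun y => η y * om y) x)
          ≤ 1 * Real.sqrt (gs (fun y => η y * om y) x) :=
        mul_le_mul_of_nonneg_right h6 (Real.sqrt_nonneg _)
      have m4 : η x * Real.sqrt (gs om x) ≤ Gw lam x * Real.sqrt (gs om x) :=
        mul_le_mul_of_nonneg_right h2 s2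
      have m5 : om x * Real.sqrt (gs η x) ≤ 1 * Real.sqrt (gs η x) :=
        mul_le_mul_of_nonneg_right h4 s1
      linarith
    linarith
  calc |EE s3 u η om b x| * Real.sqrt (gs (fun y => η y * om y * b y) x)
      ≤ Gw lam x * (Real.sqrt (gs η x) + Gw lam x * Real.sqrt (gs om x)
          + Gw lam x * (2 * C1 / R)) :=
        mul_le_mul a1 hE (Real.sqrt_nonneg _) hG.le
    _ = _ := by ring

/-! ### the part of the ray which meets `supp ∇χ` -/

/-- where the gradient of `χ` lives on the ray. -/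
def AA (W : ℝ) (B : Set R3) (u : R3 → ℝ) (x : R3) : Set ℝ :=
  {t | Far B W (xt u x t) ∧ ¬ Far B (7 / 4 * W) (xt u x t)}

lemma meas_AA : MeasurableSet (AA W B u x) :=
  ((measurableSet_far B W).preimage (xt_cont_t x).measurable).inter
    ((measurableSet_not_far B (7 / 4 * W)).preimage (xt_cont_t x).measurable)

/-- the part of the profile seen by `∇χ`. -/
noncomputable def TT (ε κ W : ℝ) (B : Set R3) (u : R3 → ℝ) (x : R3) : ℝ :=
  ∫ t in AA W B u x, prf ε κ u x t ^ 2

lemma TT_nonneg : 0 ≤ TT ε κ W B u x := integral_nonneg fun t => sq_nonneg _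

lemma TT_le_sig : TT ε κ W B u x ≤ sig0 :=
  (setIntegral_le_integral (integrable_prf_sq x) (Eventually.of_forall fun t => sq_nonneg _)).trans
    (integral_prf_sq_le x)

lemma TT_near (hW : 0 ≤ W) (hx : |phi u x| ≤ s3) (h : ¬ Far B (W / 2) x) :
    TT ε κ W B u x ≤ cG s3 * Real.exp (-(Real.sqrt 2) * W) := by
  have h1 := tail_g1 (s := phi u x) (T := W / 2) hx (by linarith)
  have e : -(2 * Real.sqrt 2) * (W / 2) = -(Real.sqrt 2) * W := by ring
  rw [e] at h1
  refine le_trans ?_ h1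
  have hsub : AA W B u x ⊆ {t : ℝ | W / 2 ≤ |t|} := by
    intro t ht
    have := lt_abs_of_xt_far h ht.1
    simp only [Set.mem_setOf_eq]
    linarith
  calc TT ε κ W B u x ≤ ∫ t in AA W B u x, g1 (phi u x + t) ^ 2 :=
        integral_mono (integrable_prf_sq x).integrableOn (integrable_g1_shift _).integrableOn
          (fun t => prf_sq_le x t)
    _ ≤ ∫ t in {t : ℝ | W / 2 ≤ |t|}, g1 (phi u x + t) ^ 2 :=
        setIntegral_mono_set (integrable_g1_shift _).integrableOn
          (Eventually.of_forall fun t => sq_nonneg _) (Eventually.of_forall hsub)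

lemma TT_far (hW : 0 ≤ W) (hx : |phi u x| ≤ s3) (h : Far B (4 * W) x) :
    TT ε κ W B u x ≤ cG s3 * hB W B x := by
  have h1 := far_tail_set (W := W) (B := B) hx
  refine le_trans ?_ h1
  have hsub : AA W B u x ⊆ {t : ℝ | W / 2 ≤ |t| ∧ ¬ Far B (2 * W) (xt u x t)} := by
    intro t ht
    have h2 := lt_abs_of_far h ht.2
    refine ⟨by linarith, fun h3 => ht.2 (far_mono h3 (by linarith))⟩
  calc TT ε κ W B u x ≤ ∫ t in AA W B u x, g1 (phi u x + t) ^ 2 :=
        integral_mono (integrable_prf_sq x).integrableOn (integrable_g1_shift _).integrableOn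
          (fun t => prf_sq_le x t)
    _ ≤ ∫ t in {t : ℝ | W / 2 ≤ |t| ∧ ¬ Far B (2 * W) (xt u x t)}, g1 (phi u x + t) ^ 2 :=
        setIntegral_mono_set (integrable_g1_shift _).integrableOn
          (Eventually.of_forall fun t => sq_nonneg _) (Eventually.of_forall hsub)

/-! ### the integrand -/

open Classical in
/-- pointwise bound of the integrand. -/
lemma pw_xt (hS : SDat CX s3 δ W lam C1 u B η w χ om) (hP : PtF s3 μ c2 Cp ε κ W u B χ)
    (hs : 0 < s3) (hb : BDat C1 R b) (hW : 0 < W) (hC1 : 0 < C1)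
    (h : |phi u x| ≤ s3 + 1) (hF : Far B (W / 4) x) (t : ℝ) :
    |PhE s3 ε κ u η om b (x, t) *
        ∑ i, cdx u (PhE s3 ε κ u η om b) (x, t) i * pd i χ (xt u x t)|
    ≤ C1 / W * ((AA W B u x).indicator (fun t => Cp * |EE s3 u η om b x| *
          Real.sqrt (gs (EE s3 u η om b) x) * prf ε κ u x t ^ 2) t
        + {t : ℝ | dep ε κ u x ≤ |t| ∧ |t| ≤ dep ε κ u x + 1}.indicator
          (fun _ => Cp * ε * (qq u x + κ ^ 2) * EE s3 u η om b x ^ 2) t) := by
  have hC := hP.C0
  have hep := hP.ep0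
  have hq := H147.qq_nonneg hS.hs.toSol hS.hs.lt x
  have hd := (phe_cd hS hP hs hb).differentiable (by norm_num)
  set Φ := PhE s3 ε κ u η om b with hΦ
  have n1 : 0 ≤ (AA W B u x).indicator (fun t => Cp * |EE s3 u η om b x| *
          Real.sqrt (gs (EE s3 u η om b) x) * prf ε κ u x t ^ 2) t :=
    Set.indicator_nonneg (fun t _ => by positivity) t
  have n2 : 0 ≤ {t : ℝ | dep ε κ u x ≤ |t| ∧ |t| ≤ dep ε κ u x + 1}.indicator
          (fun _ => Cp * ε * (qq u x + κ ^ 2) * EE s3 u η om b x ^ 2) t :=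
    Set.indicator_nonneg (fun t _ => by positivity) t
  by_cases hA : t ∈ AA W B u x
  · have e1 : Φ (x, t) * ∑ i, cdx u Φ (x, t) i * pd i χ (xt u x t)
        = 1 / 2 * ∑ i, cdx u (fun z => Φ z ^ 2) (x, t) i * pd i χ (xt u x t) := by
      rw [Finset.mul_sum, Finset.mul_sum]
      refine Finset.sum_congr rfl fun i _ => ?_
      have : cdx u (fun z => Φ z ^ 2) (x, t) i = 2 * Φ (x, t) * cdx u Φ (x, t) i := by
        unfold cdx
        rw [Finset.mul_sum]
        refine Finset.sum_congr rfl fun j _ => ?_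
        rw [H88.px_sq hd]; ring
      rw [this]; ring
    have e2 : |∑ i, cdx u (fun z => Φ z ^ 2) (x, t) i * pd i χ (xt u x t)|
        ≤ eno (cdx u (fun z => Φ z ^ 2) (x, t)) * eno (fun i => pd i χ (xt u x t)) := by
      have h1 := Finset.sum_mul_sq_le_sq_mul_sq Finset.univ
        (fun i => cdx u (fun z => Φ z ^ 2) (x, t) i) (fun i => pd i χ (xt u x t))
      refine abs_le_of_sq_le_sq ?_ (mul_nonneg (eno_nonneg _) (eno_nonneg _))
      rw [mul_pow, eno_sq, eno_sq]
      exact h1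
    have e3 : eno (fun i => pd i χ (xt u x t)) ≤ 2 * (C1 / W) :=
      eno_le_two (by positivity) (fun i => hS.chid _ i)
    have e4 := hP.cdx3 (EE s3 u η om b) (ee_cd hS hb) x h hF t
    have e5 : eno (cdx u (fun z => Φ z ^ 2) (x, t))
        ≤ (AA W B u x).indicator (fun t => Cp * |EE s3 u η om b x| *
          Real.sqrt (gs (EE s3 u η om b) x) * prf ε κ u x t ^ 2) t
        + {t : ℝ | dep ε κ u x ≤ |t| ∧ |t| ≤ dep ε κ u x + 1}.indicator
          (fun _ => Cp * ε * (qq u x + κ ^ 2) * EE s3 u η om b x ^ 2) t := by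
      rw [Set.indicator_of_mem hA]
      refine le_trans e4 (le_of_eq ?_)
      congr 1
      simp only [Set.indicator, Set.mem_setOf_eq]
    rw [e1, abs_mul, abs_of_pos (by norm_num : (0:ℝ) < 1 / 2)]
    have e6 := e2.trans (mul_le_mul e5 e3 (eno_nonneg _) (add_nonneg n1 n2))
    calc 1 / 2 * |∑ i, cdx u (fun z => Φ z ^ 2) (x, t) i * pd i χ (xt u x t)|
        ≤ 1 / 2 * (((AA W B u x).indicator (fun t => Cp * |EE s3 u η om b x| *
          Real.sqrt (gs (EE s3 u η om b) x) * prf ε κ u x t ^ 2) t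
        + {t : ℝ | dep ε κ u x ≤ |t| ∧ |t| ≤ dep ε κ u x + 1}.indicator
          (fun _ => Cp * ε * (qq u x + κ ^ 2) * EE s3 u η om b x ^ 2) t) * (2 * (C1 / W))) := by
          gcongr
      _ = _ := by ring
  · have e0 : ∑ i, cdx u Φ (x, t) i * pd i χ (xt u x t) = 0 := by
      refine Finset.sum_eq_zero fun i _ => ?_
      have : pd i χ (xt u x t) = 0 := by
        by_contra hne
        exact hA (chi_pd hS hne)
      rw [this, mul_zero]
    rw [e0, mul_zero, abs_zero]
    positivity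

/-- the end caps have total length `2`. -/
lemma int_cap {d K : ℝ} (hd : 0 ≤ d) (hK : 0 ≤ K) :
    Integrable ({t : ℝ | d ≤ |t| ∧ |t| ≤ d + 1}.indicator fun _ => K) ∧
    ∫ t, {t : ℝ | d ≤ |t| ∧ |t| ≤ d + 1}.indicator (fun _ => K) t ≤ 2 * K := by
  have hm : MeasurableSet {t : ℝ | d ≤ |t| ∧ |t| ≤ d + 1} :=
    (isClosed_le continuous_const continuous_abs).measurableSet.inter
      (isClosed_le continuous_abs continuous_const).measurableSet
  have hsub : {t : ℝ | d ≤ |t| ∧ |t| ≤ d + 1} ⊆ Set.Icc d (d + 1) ∪ Set.Icc (-(d + 1)) (-d) := by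
    rintro t ⟨h1, h2⟩
    rcases le_total 0 t with h | h
    · rw [abs_of_nonneg h] at h1 h2
      exact Or.inl ⟨h1, h2⟩
    · rw [abs_of_nonpos h] at h1 h2
      exact Or.inr ⟨by linarith, by linarith⟩
  have hv : volume {t : ℝ | d ≤ |t| ∧ |t| ≤ d + 1} ≤ ENNReal.ofReal 2 := by
    refine (measure_mono hsub).trans ((measure_union_le _ _).trans ?_)
    rw [Real.volume_Icc, Real.volume_Icc, ← ENNReal.ofReal_add (by linarith) (by linarith)]
    exact ENNReal.ofReal_le_ofReal (by linarith)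
  have hfin : volume {t : ℝ | d ≤ |t| ∧ |t| ≤ d + 1} ≠ ⊤ :=
    (hv.trans_lt ENNReal.ofReal_lt_top).ne
  refine ⟨(integrable_indicator_iff hm).mpr (integrableOn_const hfin), ?_⟩
  rw [integral_indicator hm, setIntegral_const, smul_eq_mul]
  refine mul_le_mul_of_nonneg_right ?_ hK
  unfold Measure.real
  have := ENNReal.toReal_mono ENNReal.ofReal_ne_top hv
  rwa [ENNReal.toReal_ofReal (by norm_num)] at this

/-- the inner integral. -/
lemma inner_le (hS : SDat CX s3 δ W lam C1 u B η w χ om) (hP : PtF s3 μ c2 Cp ε κ W u B χ)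
    (hs : 0 < s3) (hb : BDat C1 R b) (hW : 0 < W) (hC1 : 0 < C1)
    (h : |phi u x| ≤ s3 + 1) (hF : Far B (W / 4) x) :
    ∫ t, PhE s3 ε κ u η om b (x, t) *
        ∑ i, cdx u (PhE s3 ε κ u η om b) (x, t) i * pd i χ (xt u x t)
    ≤ C1 / W * (Cp * (|EE s3 u η om b x| * Real.sqrt (gs (EE s3 u η om b) x)) * TT ε κ W B u x
        + 2 * (Cp * ε * (qq u x + κ ^ 2) * EE s3 u η om b x ^ 2)) := by
  have hC := hP.C0
  have hep := hP.ep0
  have hq := H147.qq_nonneg hS.hs.toSol hS.hs.lt x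
  have hcap := int_cap (d := dep ε κ u x) (K := Cp * ε * (qq u x + κ ^ 2) * EE s3 u η om b x ^ 2)
    (dep_nonneg hS hP x) (by positivity)
  have i1 : Integrable ((AA W B u x).indicator (fun t => Cp * |EE s3 u η om b x| *
          Real.sqrt (gs (EE s3 u η om b) x) * prf ε κ u x t ^ 2)) :=
    ((integrable_prf_sq x).const_mul _).indicator meas_AA
  have hI := norm_integral_le_of_norm_le ((i1.add hcap.1).const_mul (C1 / W))
    (Eventually.of_forall fun t => by
      rw [Real.norm_eq_abs]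
      exact pw_xt hS hP hs hb hW hC1 h hF t)
  rw [Real.norm_eq_abs] at hI
  refine (le_abs_self _).trans (hI.trans ?_)
  rw [integral_const_mul]
  refine mul_le_mul_of_nonneg_left ?_ (by positivity)
  have hadd := integral_add i1 hcap.1
  have e1 : ∫ t, (AA W B u x).indicator (fun t => Cp * |EE s3 u η om b x| *
          Real.sqrt (gs (EE s3 u η om b) x) * prf ε κ u x t ^ 2) t
      = Cp * (|EE s3 u η om b x| * Real.sqrt (gs (EE s3 u η om b) x)) * TT ε κ W B u x := by
    rw [integral_indicator meas_AA, integral_const_mul]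
    unfold TT
    ring
  calc _ = _ := hadd
    _ ≤ _ := by rw [e1]; exact add_le_add le_rfl hcap.2

/-- the outer pointwise bound. -/
lemma outer_le (hS : SDat CX s3 δ W lam C1 u B η w χ om) (hb : BDat C1 R b)
    (hs : 0 < s3) (hW : 1 ≤ W) (hC1 : 0 < C1) (hx : |phi u x| < s3) :
    w (phi u x) * rr u x * (|EE s3 u η om b x| * Real.sqrt (gs (EE s3 u η om b) x)
        * TT ε κ W B u x)
    ≤ lam * sig0 * {x | ¬ Far B (4 * W) x}.indicator (fun x => Gw lam x ^ 2) x
      + cG s3 / 2 * (Gw lam x ^ 2 * hB W B x)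
      + cG s3 / 2 * (w (phi u x) * rr u x * gs η x)
      + 8 * C1 / W * cG s3 * Real.exp (-(Real.sqrt 2) * W)
          * {x | ¬ Far B (W / 2) x}.indicator (fun x => Gw lam x ^ 2) x
      + 2 * C1 / R * sig0 * Gw lam x ^ 2 := by
  have hR : 0 < R := lt_of_lt_of_le one_pos hb.R1
  have hW0 : 0 < W := by linarith
  have hG := H586.Gw_pos lam x
  have hl := hS.lam0
  have hc := cG_pos s3
  have hsg := sig0_pos
  have hw0 := T2.wrr_nonneg hS x
  have hw1 := T2.wrr_le_one hS x
  have hT0 := TT_nonneg (ε := ε) (κ := κ) (W := W) (B := B) (u := u) (x := x)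
  have hT1 := TT_le_sig (ε := ε) (κ := κ) (W := W) (B := B) (u := u) (x := x)
  have hh := hB_nonneg W B x
  have hgη := gs_nonneg η x
  have s1 := Real.sqrt_nonneg (gs η x)
  have s2 := Real.sqrt_nonneg (gs om x)
  have q1 := Real.sq_sqrt hgη
  have n1 : 0 ≤ lam * sig0 * {x | ¬ Far B (4 * W) x}.indicator (fun x => Gw lam x ^ 2) x :=
    mul_nonneg (by positivity) (Set.indicator_nonneg (fun x _ => sq_nonneg _) x)
  have n2 : 0 ≤ cG s3 / 2 * (Gw lam x ^ 2 * hB W B x) := by positivity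
  have n3 : 0 ≤ cG s3 / 2 * (w (phi u x) * rr u x * gs η x) := by positivity
  have n4 : 0 ≤ 8 * C1 / W * cG s3 * Real.exp (-(Real.sqrt 2) * W)
          * {x | ¬ Far B (W / 2) x}.indicator (fun x => Gw lam x ^ 2) x :=
    mul_nonneg (by positivity) (Set.indicator_nonneg (fun x _ => sq_nonneg _) x)
  -- first term
  have t1 : w (phi u x) * rr u x * (Gw lam x * Real.sqrt (gs η x) * TT ε κ W B u x)
      ≤ lam * sig0 * {x | ¬ Far B (4 * W) x}.indicator (fun x => Gw lam x ^ 2) x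
        + cG s3 / 2 * (Gw lam x ^ 2 * hB W B x)
        + cG s3 / 2 * (w (phi u x) * rr u x * gs η x) := by
    by_cases hF : Far B (4 * W) x
    · have hT := TT_far (ε := ε) (κ := κ) (W := W) (B := B) (u := u) hW0.le hx.le hF
      have hh1 : hB W B x ≤ 1 := by
        refine (hB_le hW0.le B x).trans ?_
        rw [Real.exp_le_one_iff]
        nlinarith [Real.sqrt_nonneg 2]
      have p1 : Gw lam x * Real.sqrt (gs η x) ≤ (Gw lam x ^ 2 + gs η x) / 2 := by
        nlinarith [sq_nonneg (Gw lam x - Real.sqrt (gs η x))]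
      have p2 : Gw lam x * Real.sqrt (gs η x) * TT ε κ W B u x
          ≤ (Gw lam x ^ 2 + gs η x) / 2 * (cG s3 * hB W B x) :=
        mul_le_mul p1 hT hT0 (by positivity)
      have p3 : w (phi u x) * rr u x * (Gw lam x * Real.sqrt (gs η x) * TT ε κ W B u x)
          ≤ w (phi u x) * rr u x * ((Gw lam x ^ 2 + gs η x) / 2 * (cG s3 * hB W B x)) :=
        mul_le_mul_of_nonneg_left p2 hw0
      have p4 : w (phi u x) * rr u x * (cG s3 / 2 * (Gw lam x ^ 2 * hB W B x))
          ≤ 1 * (cG s3 / 2 * (Gw lam x ^ 2 * hB W B x)) := mul_le_mul_of_nonneg_right hw1 n2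
      have p5 : cG s3 / 2 * (w (phi u x) * rr u x * gs η x) * hB W B x
          ≤ cG s3 / 2 * (w (phi u x) * rr u x * gs η x) * 1 := mul_le_mul_of_nonneg_left hh1 n3
      have p6 : w (phi u x) * rr u x * ((Gw lam x ^ 2 + gs η x) / 2 * (cG s3 * hB W B x))
          = w (phi u x) * rr u x * (cG s3 / 2 * (Gw lam x ^ 2 * hB W B x))
            + cG s3 / 2 * (w (phi u x) * rr u x * gs η x) * hB W B x := by ring
      linarith
    · have hi : {x | ¬ Far B (4 * W) x}.indicator (fun x => Gw lam x ^ 2) x = Gw lam x ^ 2 :=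
        Set.indicator_of_mem (s := {x | ¬ Far B (4 * W) x}) hF _
      have hev : η =ᶠ[𝓝 x] Gw lam := by
        have hc : Continuous (phi u) := (H88.phi_contDiff hS.hs.toSol hS.hs.lt 0).continuous
        filter_upwards [(isClosed_far B (4 * W)).isOpen_compl.mem_nhds hF,
          hc.abs.continuousAt.eventually_lt continuousAt_const hx] with y hy1 hy2
        exact hS.etaG y hy1 hy2.le
      have hg1 : gs η x = gs (Gw lam) x := by
        unfold gs
        exact Finset.sum_congr rfl fun i _ => by rw [pd_congr hev]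
      have hg2 : Real.sqrt (gs η x) ≤ lam * Gw lam x := by
        rw [hg1, Real.sqrt_le_left (by positivity), mul_pow]
        exact H586.gs_Gw_le lam x
      have p1 : Gw lam x * Real.sqrt (gs η x) ≤ lam * Gw lam x ^ 2 := by
        calc Gw lam x * Real.sqrt (gs η x) ≤ Gw lam x * (lam * Gw lam x) := by gcongr
          _ = _ := by ring
      have p2 : Gw lam x * Real.sqrt (gs η x) * TT ε κ W B u x ≤ lam * Gw lam x ^ 2 * sig0 :=
        mul_le_mul p1 hT1 hT0 (by positivity)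
      have p3 : w (phi u x) * rr u x * (Gw lam x * Real.sqrt (gs η x) * TT ε κ W B u x)
          ≤ 1 * (lam * Gw lam x ^ 2 * sig0) :=
        mul_le_mul hw1 p2 (by positivity) (by norm_num)
      rw [hi]
      linarith
  -- second term
  have t2 : w (phi u x) * rr u x * (Gw lam x ^ 2 * Real.sqrt (gs om x) * TT ε κ W B u x)
      ≤ 8 * C1 / W * cG s3 * Real.exp (-(Real.sqrt 2) * W)
          * {x | ¬ Far B (W / 2) x}.indicator (fun x => Gw lam x ^ 2) x := by
    by_cases h0 : gs om x = 0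
    · rw [h0]; simp only [Real.sqrt_zero, mul_zero, zero_mul]; exact n4
    · have hF := (om_gs hS h0).2
      have hi : {x | ¬ Far B (W / 2) x}.indicator (fun x => Gw lam x ^ 2) x = Gw lam x ^ 2 :=
        Set.indicator_of_mem (s := {x | ¬ Far B (W / 2) x}) hF _
      have hT := TT_near (ε := ε) (κ := κ) hW0.le hx.le hF
      have k1 : Real.sqrt (gs om x) ≤ 8 * C1 / W := by
        have := eno_le_two (v := fun i => pd i om x) (K := 4 * C1 / W) (by positivity)
          (fun i => hS.omd x i)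
        calc Real.sqrt (gs om x) ≤ 2 * (4 * C1 / W) := this
          _ = _ := by ring
      have p1 : Gw lam x ^ 2 * Real.sqrt (gs om x) * TT ε κ W B u x
          ≤ Gw lam x ^ 2 * (8 * C1 / W) * (cG s3 * Real.exp (-(Real.sqrt 2) * W)) := by
        refine mul_le_mul (by gcongr) hT hT0 (by positivity)
      have p3 : w (phi u x) * rr u x * (Gw lam x ^ 2 * Real.sqrt (gs om x) * TT ε κ W B u x)
          ≤ 1 * (Gw lam x ^ 2 * (8 * C1 / W) * (cG s3 * Real.exp (-(Real.sqrt 2) * W))) :=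
        mul_le_mul hw1 p1 (by positivity) (by norm_num)
      rw [hi]
      linarith
  -- third term
  have t3 : w (phi u x) * rr u x * (Gw lam x ^ 2 * (2 * C1 / R) * TT ε κ W B u x)
      ≤ 2 * C1 / R * sig0 * Gw lam x ^ 2 := by
    have p1 : Gw lam x ^ 2 * (2 * C1 / R) * TT ε κ W B u x
        ≤ Gw lam x ^ 2 * (2 * C1 / R) * sig0 := by gcongr
    have p3 : w (phi u x) * rr u x * (Gw lam x ^ 2 * (2 * C1 / R) * TT ε κ W B u x)
        ≤ 1 * (Gw lam x ^ 2 * (2 * C1 / R) * sig0) :=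
      mul_le_mul hw1 p1 (by positivity) (by norm_num)
    linarith
  have hE := ee_gs_le hS hb hC1 hs hx
  have hE2 : w (phi u x) * rr u x * (|EE s3 u η om b x| * Real.sqrt (gs (EE s3 u η om b) x)
        * TT ε κ W B u x)
      ≤ w (phi u x) * rr u x * ((Gw lam x * Real.sqrt (gs η x)
        + Gw lam x ^ 2 * Real.sqrt (gs om x) + Gw lam x ^ 2 * (2 * C1 / R)) * TT ε κ W B u x) :=
    mul_le_mul_of_nonneg_left (mul_le_mul_of_nonneg_right hE hT0) hw0
  have e : w (phi u x) * rr u x * ((Gw lam x * Real.sqrt (gs η x)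
        + Gw lam x ^ 2 * Real.sqrt (gs om x) + Gw lam x ^ 2 * (2 * C1 / R)) * TT ε κ W B u x)
      = w (phi u x) * rr u x * (Gw lam x * Real.sqrt (gs η x) * TT ε κ W B u x)
        + w (phi u x) * rr u x * (Gw lam x ^ 2 * Real.sqrt (gs om x) * TT ε κ W B u x)
        + w (phi u x) * rr u x * (Gw lam x ^ 2 * (2 * C1 / R) * TT ε κ W B u x) := by ring
  linarith

/-- `∫ w |∇φ| |∇η|²` is finite. -/
lemma int_N (hS : SDat CX s3 δ W lam C1 u B η w χ om) :
    Integrable fun x => w (phi u x) * rr u x * gs η x := by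
  obtain ⟨M, hM⟩ := hS.etaM
  have hG : Integrable (fun x => Gw lam x ^ 2) := H586.int_Gw_sq hS.lam0
  refine (hG.const_mul M).mono' ?_ (Eventually.of_forall fun x => ?_)
  · refine ((T2.meas_wrr hS).mul ?_).aestronglyMeasurable
    unfold gs
    exact Finset.measurable_sum _ fun i _ => ((continuous_pd hS.eta1).measurable.pow_const 2)
  · have h1 := T2.wrr_nonneg hS x
    have h2 := T2.wrr_le_one hS x
    have h3 := gs_nonneg η x
    rw [Real.norm_eq_abs, abs_of_nonneg (by positivity)]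
    calc w (phi u x) * rr u x * gs η x ≤ 1 * gs η x := mul_le_mul_of_nonneg_right h2 h3
      _ ≤ _ := by rw [one_mul]; exact hM x

/-- `W e^{-√2 W} ≤ (5/2) e^{-W}`. -/
lemma W_exp (hW : 0 ≤ W) : W * Real.exp (-(Real.sqrt 2) * W) ≤ 5 / 2 * Real.exp (-W) := by
  have h1 : (7:ℝ) / 5 ≤ Real.sqrt 2 := by
    rw [show (7:ℝ) / 5 = Real.sqrt ((7 / 5) ^ 2) by rw [Real.sqrt_sq (by norm_num)]]
    exact Real.sqrt_le_sqrt (by norm_num)
  have h2 : Real.exp (-(Real.sqrt 2) * W) ≤ Real.exp (-(2 / 5 * W)) * Real.exp (-W) := by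
    rw [← Real.exp_add]
    apply Real.exp_le_exp.mpr
    nlinarith
  have h3 : W ≤ 5 / 2 * Real.exp (2 / 5 * W) := by
    have := Real.add_one_le_exp (2 / 5 * W)
    linarith
  have h4 : W * Real.exp (-(2 / 5 * W)) ≤ 5 / 2 := by
    calc W * Real.exp (-(2 / 5 * W))
        ≤ 5 / 2 * Real.exp (2 / 5 * W) * Real.exp (-(2 / 5 * W)) := by gcongr
      _ = 5 / 2 := by rw [mul_assoc, ← Real.exp_add]; simp
  calc W * Real.exp (-(Real.sqrt 2) * W)
      ≤ W * (Real.exp (-(2 / 5 * W)) * Real.exp (-W)) := by gcongr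
    _ = W * Real.exp (-(2 / 5 * W)) * Real.exp (-W) := by ring
    _ ≤ _ := mul_le_mul_of_nonneg_right h4 (Real.exp_pos _).le

lemma exp_le_two {y : ℝ} (h : y ≤ 2 / 5) : Real.exp y ≤ 2 := by
  have h1 : Real.exp y ≤ Real.exp (1 / 2) := Real.exp_le_exp.mpr (by linarith)
  have h2 : Real.exp (1 / 2) ^ 2 < 4 := by
    rw [← Real.exp_nat_mul]
    have := Real.exp_one_lt_d9
    norm_num
    linarith
  nlinarith [Real.exp_pos (1 / 2 : ℝ)]

/-- the final arithmetic. -/
lemma arith {C1 Cp W ε R lam μ sg cg Cub S IG D N I4 I2 Ih e1 e2 : ℝ} (hC1 : 0 < C1)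
    (hCp : 0 < Cp) (hW : 1 ≤ W) (hep : 0 < ε) (hR : 0 < R) (hlam : 0 < lam) (hμ : 0 < μ)
    (hsg : 0 < sg) (hc : 0 < cg) (hCub : 0 < Cub) (hS0 : 0 ≤ S) (hIG : 0 ≤ IG) (hD0 : 0 ≤ D)
    (hN0 : 0 ≤ N) (hWμ : C1 * Cp * cg / (μ * sg) ≤ W) (g4 : I4 ≤ 1024 * W ^ 3 * S)
    (g2 : I2 ≤ 2 * W ^ 3 * S) (hBi : Ih ≤ Cub * e1 * S) (he1 : 0 ≤ e1) (he2 : 0 ≤ e2)
    (he : W * e2 ≤ 5 / 2 * e1) :
    C1 / W * Cp * (lam * sg * I4 + cg / 2 * Ih + cg / 2 * N
        + 8 * C1 / W * cg * e2 * I2 + 2 * C1 / R * sg * IG)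
        + C1 / W * (2 * (Cp * ε)) * D
      ≤ μ / 2 * sg * N
        + (2 * C1 * Cp + 1024 * C1 * Cp * sg + C1 * Cp * cg * Cub
            + 40 * C1 ^ 2 * Cp * cg) * (1 / W + ε) * D
        + ((2 * C1 * Cp + 1024 * C1 * Cp * sg + C1 * Cp * cg * Cub
            + 40 * C1 ^ 2 * Cp * cg) * lam * W ^ 4
          + (2 * C1 * Cp + 1024 * C1 * Cp * sg + C1 * Cp * cg * Cub
            + 40 * C1 ^ 2 * Cp * cg) * e1) * S
        + C1 * Cp * (2 * C1) * sg * IG / R := by
  have hWp : 0 < W := by linarith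
  have hiW : C1 / W ≤ C1 := div_le_self hC1.le hW
  -- the six terms
  have r1 : C1 / W * Cp * (lam * sg * I4) ≤ 1024 * C1 * Cp * sg * lam * W ^ 4 * S := by
    calc C1 / W * Cp * (lam * sg * I4)
        ≤ C1 / W * Cp * (lam * sg * (1024 * W ^ 3 * S)) := by gcongr
      _ = 1024 * C1 * Cp * sg * lam * W ^ 2 * S := by field_simp
      _ ≤ 1024 * C1 * Cp * sg * lam * W ^ 4 * S := by
          have : W ^ 2 ≤ W ^ 4 := pow_le_pow_right₀ hW (by norm_num)
          gcongr
  have r2 : C1 / W * Cp * (cg / 2 * Ih) ≤ C1 * Cp * cg * Cub * e1 * S := by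
    calc C1 / W * Cp * (cg / 2 * Ih)
        ≤ C1 / W * Cp * (cg / 2 * (Cub * e1 * S)) := by gcongr
      _ ≤ C1 * Cp * (cg * (Cub * e1 * S)) := by
          have : cg / 2 ≤ cg := by linarith
          gcongr
      _ = _ := by ring
  have r3 : C1 / W * Cp * (cg / 2 * N) ≤ μ / 2 * sg * N := by
    have h1 : C1 * Cp * cg ≤ W * (μ * sg) := by
      rwa [div_le_iff₀ (by positivity)] at hWμ
    have h2 : C1 / W * Cp * (cg / 2) ≤ μ / 2 * sg := by
      have e : C1 / W * Cp * (cg / 2) = (C1 * Cp * cg) / (2 * W) := by field_simp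
      rw [e, div_le_iff₀ (by positivity)]
      linarith
    calc C1 / W * Cp * (cg / 2 * N) = C1 / W * Cp * (cg / 2) * N := by ring
      _ ≤ _ := mul_le_mul_of_nonneg_right h2 hN0
  have r4 : C1 / W * Cp * (8 * C1 / W * cg * e2 * I2)
      ≤ 40 * C1 ^ 2 * Cp * cg * e1 * S := by
    calc C1 / W * Cp * (8 * C1 / W * cg * e2 * I2)
        ≤ C1 / W * Cp * (8 * C1 / W * cg * e2
            * (2 * W ^ 3 * S)) := by gcongr
      _ = 16 * C1 ^ 2 * Cp * cg * (W * e2) * S := by
          field_simp; ring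
      _ ≤ 16 * C1 ^ 2 * Cp * cg * (5 / 2 * e1) * S := by
          gcongr
      _ = _ := by ring
  have r5 : C1 / W * Cp * (2 * C1 / R * sg * IG) ≤ C1 * Cp * (2 * C1) * sg * IG / R := by
    calc C1 / W * Cp * (2 * C1 / R * sg * IG)
        ≤ C1 * Cp * (2 * C1 / R * sg * IG) := by gcongr
      _ = _ := by ring
  have r6 : C1 / W * (2 * (Cp * ε)) * D ≤ 2 * C1 * Cp * (1 / W + ε) * D := by
    calc C1 / W * (2 * (Cp * ε)) * D ≤ C1 * (2 * (Cp * ε)) * D := by gcongr
      _ = 2 * C1 * Cp * (0 + ε) * D := by ring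
      _ ≤ 2 * C1 * Cp * (1 / W + ε) * D := by
          have : 0 ≤ 1 / W := by positivity
          gcongr
  have m1 : 0 ≤ (1024 * C1 * Cp * sg + C1 * Cp * cg * Cub + 40 * C1 ^ 2 * Cp * cg)
      * (1 / W + ε) * D := by positivity
  have m2 : 0 ≤ (2 * C1 * Cp + C1 * Cp * cg * Cub + 40 * C1 ^ 2 * Cp * cg)
      * lam * W ^ 4 * S := by positivity
  have m3 : 0 ≤ (2 * C1 * Cp + 1024 * C1 * Cp * sg) * e1 * S := by positivity
  have efin : μ / 2 * sg * N + 2 * C1 * Cp * (1 / W + ε) * D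
        + 1024 * C1 * Cp * sg * lam * W ^ 4 * S
        + C1 * Cp * cg * Cub * e1 * S
        + 40 * C1 ^ 2 * Cp * cg * e1 * S
        + C1 * Cp * (2 * C1) * sg * IG / R
        + ((1024 * C1 * Cp * sg + C1 * Cp * cg * Cub + 40 * C1 ^ 2 * Cp * cg)
            * (1 / W + ε) * D
          + (2 * C1 * Cp + C1 * Cp * cg * Cub + 40 * C1 ^ 2 * Cp * cg) * lam * W ^ 4 * S
          + (2 * C1 * Cp + 1024 * C1 * Cp * sg) * e1 * S)
      = μ / 2 * sg * N
        + (2 * C1 * Cp + 1024 * C1 * Cp * sg + C1 * Cp * cg * Cub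
            + 40 * C1 ^ 2 * Cp * cg) * (1 / W + ε) * D
        + ((2 * C1 * Cp + 1024 * C1 * Cp * sg + C1 * Cp * cg * Cub
            + 40 * C1 ^ 2 * Cp * cg) * lam * W ^ 4
          + (2 * C1 * Cp + 1024 * C1 * Cp * sg + C1 * Cp * cg * Cub
            + 40 * C1 ^ 2 * Cp * cg) * e1) * S
        + C1 * Cp * (2 * C1) * sg * IG / R := by ring
  rw [← efin]
  have edist : C1 / W * Cp * (lam * sg * I4 + cg / 2 * Ih + cg / 2 * N
        + 8 * C1 / W * cg * e2 * I2 + 2 * C1 / R * sg * IG)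
        + C1 / W * (2 * (Cp * ε)) * D
      = C1 / W * Cp * (lam * sg * I4) + C1 / W * Cp * (cg / 2 * Ih)
        + C1 / W * Cp * (cg / 2 * N)
        + C1 / W * Cp * (8 * C1 / W * cg * e2 * I2)
        + C1 / W * Cp * (2 * C1 / R * sg * IG) + C1 / W * (2 * (Cp * ε)) * D := by ring
  rw [edist]
  linarith


theorem stT3b (hUB : StUB) : StT3b := by
  intro s3 C1 μ Cp hs3 hC1 hμ hμ1 hCp
  obtain ⟨Cub, hCub, HUB⟩ := hUB
  have hc := cG_pos s3
  have hsg := sig0_pos
  refine ⟨2 * C1 * Cp + 1024 * C1 * Cp * sig0 + C1 * Cp * cG s3 * Cub + 40 * C1 ^ 2 * Cp * cG s3,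
    max 1 (C1 * Cp * cG s3 / (μ * sig0)), by positivity, le_max_left _ _, ?_⟩
  intro CX δ W lam c2 ε κ u B η w χ om hW0 hlW hS hP
  have hW : 1 ≤ W := (le_max_left _ _).trans hW0
  have hWμ : C1 * Cp * cG s3 / (μ * sig0) ≤ W := (le_max_right _ _).trans hW0
  have hWp : 0 < W := by linarith
  have hlam := hS.lam0
  have hlam20 : lam ≤ 1 / 20 := by nlinarith
  have hG : Integrable (fun x => Gw lam x ^ 2) := H586.int_Gw_sq hS.lam0
  obtain ⟨hBm, hBb, hBi⟩ := HUB W lam B hW hlam hlam20 hS.latt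
  have hep := hP.ep0
  obtain ⟨-, -, -, -, -, -, hfar, -⟩ := H586.stGw lam hlam (by linarith)
  refine ⟨C1 * Cp * (2 * C1) * sig0 * ∫ x, Gw lam x ^ 2, fun R b hb => ?_⟩
  have hR : 0 < R := lt_of_lt_of_le one_pos hb.R1
  have iF := H88.int_T3b hS hP hs3 hb
  set F : R3 × ℝ → ℝ := fun z => w (phi u z.1) * rr u z.1 *
        (PhE s3 ε κ u η om b z *
            ∑ i, cdx u (PhE s3 ε κ u η om b) z i * pd i χ (xt u z.1 z.2)) with hF
  have hfub : ∫ z, F z = ∫ x, ∫ t, F (x, t) := integral_prod F iF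
  have iI : Integrable fun x => ∫ t, F (x, t) := iF.integral_prod_left
  have iD := T2.int_D (κ := κ) hS
  have iN := int_N hS
  have i4 : Integrable ({x | ¬ Far B (4 * W) x}.indicator fun x => Gw lam x ^ 2) :=
    hG.indicator (measurableSet_not_far B (4 * W))
  have i2 : Integrable ({x | ¬ Far B (W / 2) x}.indicator fun x => Gw lam x ^ 2) :=
    hG.indicator (measurableSet_not_far B (W / 2))
  have ih : Integrable fun x => Gw lam x ^ 2 * hB W B x := by
    refine (hG.const_mul (Cub * Real.exp (-W))).mono'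
      (hG.aestronglyMeasurable.mul hBm.aestronglyMeasurable) (Eventually.of_forall fun x => ?_)
    obtain ⟨h1, h2⟩ := hBb x
    rw [Real.norm_eq_abs, abs_of_nonneg (by positivity)]
    calc Gw lam x ^ 2 * hB W B x ≤ Gw lam x ^ 2 * (Cub * Real.exp (-W)) := by gcongr
      _ = _ := by ring
  -- pointwise
  have key : ∀ x, (∫ t, F (x, t))
      ≤ C1 / W * Cp * (lam * sig0 * {x | ¬ Far B (4 * W) x}.indicator (fun x => Gw lam x ^ 2) x
        + cG s3 / 2 * (Gw lam x ^ 2 * hB W B x)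
        + cG s3 / 2 * (w (phi u x) * rr u x * gs η x)
        + 8 * C1 / W * cG s3 * Real.exp (-(Real.sqrt 2) * W)
            * {x | ¬ Far B (W / 2) x}.indicator (fun x => Gw lam x ^ 2) x
        + 2 * C1 / R * sig0 * Gw lam x ^ 2)
        + C1 / W * (2 * (Cp * ε)) *
            (w (phi u x) * rr u x * (η x * om x) ^ 2 * (qq u x + κ ^ 2)) := by
    intro x
    have hw0 := T2.wrr_nonneg hS x
    have hq := H147.qq_nonneg hS.hs.toSol hS.hs.lt x
    have hgη := gs_nonneg η x
    have hh := hB_nonneg W B x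
    have n1 := Set.indicator_nonneg (s := {x | ¬ Far B (4 * W) x})
      (f := fun x => Gw lam x ^ 2) (fun x _ => sq_nonneg _) x
    have n2 := Set.indicator_nonneg (s := {x | ¬ Far B (W / 2) x})
      (f := fun x => Gw lam x ^ 2) (fun x _ => sq_nonneg _) x
    have hFx : ∀ t, F (x, t) = w (phi u x) * rr u x * (PhE s3 ε κ u η om b (x, t) *
            ∑ i, cdx u (PhE s3 ε κ u η om b) (x, t) i * pd i χ (xt u x t)) := fun t => rfl
    rw [integral_congr_ae (Eventually.of_forall hFx), integral_const_mul]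
    by_cases hw : w (phi u x) = 0
    · rw [hw]; simp only [zero_mul, mul_zero, add_zero]; positivity
    have hx : |phi u x| < s3 := w_ne hS hw
    by_cases hE : x ∈ tsupport (EE s3 u η om b)
    · obtain ⟨ha, hfx, -⟩ := ee_tsupport hS hs3 hb hE
      have h1 := inner_le hS hP hs3 hb hWp hC1 ha hfx
      have h2 := outer_le (ε := ε) (κ := κ) hS hb hs3 hW hC1 hx
      have h3 := ee_sq_le hS hb hs3 hx
      have h4 := mul_le_mul_of_nonneg_left h1 hw0
      refine h4.trans ?_
      have h5 : w (phi u x) * rr u x * (C1 / W * (Cp * (|EE s3 u η om b x|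
            * Real.sqrt (gs (EE s3 u η om b) x)) * TT ε κ W B u x
            + 2 * (Cp * ε * (qq u x + κ ^ 2) * EE s3 u η om b x ^ 2)))
          = C1 / W * Cp * (w (phi u x) * rr u x * (|EE s3 u η om b x|
            * Real.sqrt (gs (EE s3 u η om b) x) * TT ε κ W B u x))
            + C1 / W * (2 * (Cp * ε)) * (w (phi u x) * rr u x * EE s3 u η om b x ^ 2
              * (qq u x + κ ^ 2)) := by ring
      rw [h5]
      refine add_le_add (mul_le_mul_of_nonneg_left h2 (by positivity))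
        (mul_le_mul_of_nonneg_left ?_ (by positivity))
      exact mul_le_mul_of_nonneg_right (mul_le_mul_of_nonneg_left h3 hw0) (by positivity)
    · have h0 : ∀ t, PhE s3 ε κ u η om b (x, t) *
            ∑ i, cdx u (PhE s3 ε κ u η om b) (x, t) i * pd i χ (xt u x t) = 0 := by
        intro t
        have : PhE s3 ε κ u η om b (x, t) = 0 := by
          unfold PhE
          simp only
          rw [image_eq_zero_of_notMem_tsupport hE, zero_mul]
        rw [this, zero_mul]
      rw [integral_congr_ae (Eventually.of_forall h0)]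
      simp only [integral_zero, mul_zero]
      positivity
  -- integrate
  have j1 := i4.const_mul (lam * sig0)
  have j2 := ih.const_mul (cG s3 / 2)
  have j3 := iN.const_mul (cG s3 / 2)
  have j4 := i2.const_mul (8 * C1 / W * cG s3 * Real.exp (-(Real.sqrt 2) * W))
  have j5 := hG.const_mul (2 * C1 / R * sig0)
  have J := ((((j1.add j2).add j3).add j4).add j5).const_mul (C1 / W * Cp)
  have hint := integral_mono iI (J.add (iD.const_mul (C1 / W * (2 * (Cp * ε))))) key
  have eJ : ∫ x, (C1 / W * Cp * (lam * sig0 *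
          {x | ¬ Far B (4 * W) x}.indicator (fun x => Gw lam x ^ 2) x
        + cG s3 / 2 * (Gw lam x ^ 2 * hB W B x)
        + cG s3 / 2 * (w (phi u x) * rr u x * gs η x)
        + 8 * C1 / W * cG s3 * Real.exp (-(Real.sqrt 2) * W)
            * {x | ¬ Far B (W / 2) x}.indicator (fun x => Gw lam x ^ 2) x
        + 2 * C1 / R * sig0 * Gw lam x ^ 2)
        + C1 / W * (2 * (Cp * ε)) *
            (w (phi u x) * rr u x * (η x * om x) ^ 2 * (qq u x + κ ^ 2)))
      = C1 / W * Cp * (lam * sig0 * (∫ x in {x | ¬ Far B (4 * W) x}, Gw lam x ^ 2)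
        + cG s3 / 2 * (∫ x, Gw lam x ^ 2 * hB W B x)
        + cG s3 / 2 * (∫ x, w (phi u x) * rr u x * gs η x)
        + 8 * C1 / W * cG s3 * Real.exp (-(Real.sqrt 2) * W)
            * (∫ x in {x | ¬ Far B (W / 2) x}, Gw lam x ^ 2)
        + 2 * C1 / R * sig0 * ∫ x, Gw lam x ^ 2)
        + C1 / W * (2 * (Cp * ε)) *
            ∫ x, (w (phi u x) * rr u x * (η x * om x) ^ 2 * (qq u x + κ ^ 2)) := by
    have a1 := integral_add J (iD.const_mul (C1 / W * (2 * (Cp * ε))))
    have a2 := integral_add (((j1.add j2).add j3).add j4) j5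
    have a3 := integral_add ((j1.add j2).add j3) j4
    have a4 := integral_add (j1.add j2) j3
    have a5 := integral_add j1 j2
    simp only [Pi.add_apply] at a1 a2 a3 a4 a5
    rw [integral_const_mul, integral_const_mul] at a1
    rw [a2, a3, a4, a5] at a1
    rw [integral_const_mul, integral_const_mul, integral_const_mul, integral_const_mul,
      integral_const_mul, integral_indicator (measurableSet_not_far B (4 * W)),
      integral_indicator (measurableSet_not_far B (W / 2))] at a1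
    exact a1
  have hS0 : 0 ≤ ∑' b : B, Gw lam b ^ 2 := tsum_nonneg fun b => sq_nonneg _
  have hIG : 0 ≤ ∫ x, Gw lam x ^ 2 := integral_nonneg fun x => sq_nonneg _
  have hD0 : 0 ≤ ∫ x, w (phi u x) * rr u x * (η x * om x) ^ 2 * (qq u x + κ ^ 2) := by
    refine integral_nonneg fun x => ?_
    have h1 := T2.wrr_nonneg hS x
    have h2 := H147.qq_nonneg hS.hs.toSol hS.hs.lt x
    positivity
  have hN0 : 0 ≤ ∫ x, w (phi u x) * rr u x * gs η x := by
    refine integral_nonneg fun x => ?_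
    have h1 := T2.wrr_nonneg hS x
    have h2 := gs_nonneg η x
    positivity
  have f4 := hfar B hS.latt (4 * W) (by positivity)
  have f2 := hfar B hS.latt (W / 2) (by positivity)
  refine (hfub.trans_le (hint.trans (le_of_eq eJ))).trans ?_
  set S := ∑' b : B, Gw lam b ^ 2 with hSdef
  set D := ∫ x, w (phi u x) * rr u x * (η x * om x) ^ 2 * (qq u x + κ ^ 2) with hDdef
  set N := ∫ x, w (phi u x) * rr u x * gs η x with hNdef
  set IG := ∫ x, Gw lam x ^ 2 with hIGdef
  set I4 := ∫ x in {x | ¬ Far B (4 * W) x}, Gw lam x ^ 2 with hI4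
  set I2 := ∫ x in {x | ¬ Far B (W / 2) x}, Gw lam x ^ 2 with hI2
  set Ih := ∫ x, Gw lam x ^ 2 * hB W B x with hIh
  have g4 : I4 ≤ 1024 * W ^ 3 * S := by
    refine f4.trans ?_
    have := exp_le_two (y := 2 * lam * (4 * W)) (by nlinarith)
    calc 8 * (4 * W) ^ 3 * Real.exp (2 * lam * (4 * W)) * S
        ≤ 8 * (4 * W) ^ 3 * 2 * S := by gcongr
      _ = _ := by ring
  have g2 : I2 ≤ 2 * W ^ 3 * S := by
    refine f2.trans ?_
    have := exp_le_two (y := 2 * lam * (W / 2)) (by nlinarith)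
    calc 8 * (W / 2) ^ 3 * Real.exp (2 * lam * (W / 2)) * S
        ≤ 8 * (W / 2) ^ 3 * 2 * S := by gcongr
      _ = _ := by ring
  exact arith hC1 hCp hW hep hR hlam hμ hsg hc hCub hS0 hIG hD0 hN0 hWμ g4 g2 hBi
    (Real.exp_pos _).le (Real.exp_pos _).le (W_exp hWp.le)

end Vale.Agent.P134.H790.T3b
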